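/-
R335/FI/Core: the ground-state substitution `f = b η` (helper56)
-/
import Crest.Agent.R335.RT.Main

set_option autoImplicit false
set_option linter.unusedSectionVars false
set_option linter.unusedVariables false
set_option linter.unusedSimpArgs false

noncomputable section

namespace Crest.Agent.R335

open MeasureTheory Set Filter Topology Metric
open scoped ENNReal

theorem LH.aesm {f : X → ℝ} (h : LH eX f) : AEStronglyMeasurable f volume := h.1.1.aesm

theorem LT.lh {f : X → ℝ} (h : LT eX f) : LH eX f := h.1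

theorem fi_int_w {w η : X → ℝ} (hw : LH eX w) (hη : LT eX η) :
    Integrable fun x => w x ^ 2 * dot eX η η x :=
  HL.integrable_mul_dot hη.1.1 hw.sq.1.aesm hw.sq.1.2 hη

theorem fi_sq_LT {η : X → ℝ} (hη : LT eX η) : LT eX fun x => η x ^ 2 := by
  have := hη.1.mul_LT hη
  simpa only [sq] using this

/-- The ground-state identity, integrated. -/
theorem fi_dir_mul {w η : X → ℝ} (hw : LH eX w) (hη : LT eX η) :
    dir eX (fun x => w x * η x) (fun x => w x * η x) =
      dir eX w (fun x => w x * η x ^ 2) + ∫ x, w x ^ 2 * dot eX η η x := by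
  unfold dir
  rw [← integral_add (hw.1.integrable_dot (hw.mul_LT (fi_sq_LT hη))) (fi_int_w hw hη)]
  exact integral_congr_ae (hw.dot_mul hη.1)

theorem fi_alg1 {c s x y : ℝ} (h : c ^ 2 + s ^ 2 = 1) : (c * x - s * y) ^ 2 ≤ x ^ 2 + y ^ 2 := by
  nlinarith [sq_nonneg (s * x + c * y)]

/-- The current is controlled by the gradient of `η`. -/
theorem fi_current {δ M : ℝ} {P b R η : X → ℝ} {G : Set X} (ce : Cert δ P b R) (hδ : 0 ≤ δ)
    (hR : H1 eX R) (hp : LocPos R) (hM : ∀ᵐ x : X, |R x| ≤ M) (hη : LT eX η)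
    (h0 : ∀ᵐ x : X, x ∉ G → η x = 0) (hG : ∀ᵐ x : X, x ∈ G → 0 < x 2 ∧ R x / 2 ≤ b x) :
    (Integrable fun x => ∑ i, J P b i x * J P b i x * (η x / R x) ^ 2) ∧
    ∫ x, ∑ i, J P b i x * J P b i x * (η x / R x) ^ 2 ≤ 16 * ∫ x, P x ^ 2 * dot eX η η x := by
  obtain ⟨lP, lb, -, hJ⟩ := ce.lh hM
  have lR : LH eX R := hR.lh hM
  have lq : LT eX fun x => η x / R x := ⟨(hη.1.div lR hp).1, by
    obtain ⟨r, hr⟩ := hη.2
    exact ⟨r, hr.mono fun x hx h => by simp only [hx h, zero_div]⟩⟩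
  have iY : Integrable fun x => ∑ i, J P b i x * J P b i x * (η x / R x) ^ 2 :=
    integrable_finsetSum _ fun i _ =>
      (fi_sq_LT lq).integrable_mul (LocL2.of_memLp (hJ i)) (LocL2.of_memLp (hJ i))
  refine ⟨iY, ?_⟩
  obtain ⟨lw, dw⟩ := lP.div lR hp
  have lφ : LT eX fun x => P x / R x * η x ^ 2 := lw.mul_LT (fi_sq_LT hη)
  have hpos := hp.ae_pos
  have el := ce.elH lφ (by
    filter_upwards [h0, hG] with x h1 h2 hx
    by_cases hxG : x ∈ G
    · exact absurd (h2 hxG).1 hx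
    · rw [h1 hxG]; simp)
  have h2 : 0 ≤ ∫ x, P x * b x * (P x / R x * η x ^ 2) := by
    refine integral_nonneg_of_ae ?_
    filter_upwards [h0, hG, hpos] with x h1 h2 h3
    by_cases hxG : x ∈ G
    · have := ce.P_nn x
      have := ce.b_nn x (h2 hxG).1
      show 0 ≤ _
      positivity
    · simp [h1 hxG]
  have h3 : ∫ x, ∑ i, J P b i x * wd (eX i) (fun x => P x / R x * η x ^ 2) x ≤ 0 := by
    nlinarith [mul_nonneg hδ h2]
  have iφ : Integrable fun x => ∑ i, J P b i x * wd (eX i) (fun x => P x / R x * η x ^ 2) x :=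
    integrable_finsetSum _ fun i _ => (hJ i).integrable_mul (lφ.h1.2 i).2
  have iP := fi_int_w lP hη
  have h4 : ∫ x, ((∑ i, J P b i x * J P b i x * (η x / R x) ^ 2) / 4 -
      4 * (P x ^ 2 * dot eX η η x)) ≤
      ∫ x, ∑ i, J P b i x * wd (eX i) (fun x => P x / R x * η x ^ 2) x := by
    refine integral_mono_ae ((iY.div_const 4).sub (iP.const_mul 4)) iφ ?_
    filter_upwards [h0, hG, hpos, ae_all_iff.2 dw, ae_all_iff.2 hη.1.sq.2,
      ae_all_iff.2 (lw.wd_mul hη.1.sq.1), ae_all_iff.2 (ce.grad hR hp),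
      ae_all_iff.2 hη.1.1.wd_zero] with x k0 kG kp k1 k2 k3 k4 k5
    simp only [dot, Finset.mul_sum, Finset.sum_div, ← Finset.sum_sub_distrib]
    refine Finset.sum_le_sum fun i _ => ?_
    rw [k3 i, k1 i, k2 i, (k4 i).1]
    by_cases hxG : x ∈ G
    · have hb := (kG hxG).2
      set j := J P b i x
      set e := wd (eX i) η x
      have e1 : j * (((P x * wd (eX i) R x + b x * j / R x) / R x * R x - P x * wd (eX i) R x) /
          R x ^ 2 * η x ^ 2 + P x / R x * (2 * η x * e)) =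
          b x / R x * (j * (η x / R x)) ^ 2 + 2 * (j * (η x / R x)) * (P x * e) := by
        field_simp; ring
      rw [e1]
      have h5 : 1 / 2 ≤ b x / R x := by rw [le_div_iff₀ kp]; linarith
      nlinarith [sq_nonneg (j * (η x / R x)), sq_nonneg (j * (η x / R x) / 2 + 2 * (P x * e)),
        mul_le_mul_of_nonneg_right h5 (sq_nonneg (j * (η x / R x)))]
    · rw [k0 hxG, k5 i (k0 hxG)]; simp
  rw [integral_sub (iY.div_const 4) (iP.const_mul 4), integral_div, integral_const_mul] at h4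
  linarith

/-- The main inequality for functions supported where `P ≤ ε R`. -/
theorem fi_core {δ M ε a0 lam : ℝ} {P b R a v f : X → ℝ} {G : Set X} (ce : Cert δ P b R)
    (hδ : 0 ≤ δ) (hR : H1 eX R) (hp : LocPos R) (hM : ∀ᵐ x : X, |R x| ≤ M)
    (hsub : Sub eX univ R a 0) (ha : LI univ a) (hε : ε ≤ 1 / 2) (ha0 : 0 ≤ a0)
    (hG : ∀ᵐ x : X, x ∈ G → 0 < x 2 ∧ P x ≤ ε * R x ∧ a0 ≤ a x)
    (heq : ∀ φ, H1 eX φ → qf eX v b φ = lam * ip b φ)
    (hf : LT eX f) (h0 : ∀ᵐ x : X, x ∉ G → f x = 0) :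
    dir eX f f + a0 * ip f f ≤
      (1 + 34 * ε ^ 2) * (dir eX f f + 2 * (∫ x, v x * f x ^ 2) - 2 * lam * ip f f) := by
  obtain ⟨lP, lb, -, hJ⟩ := ce.lh hM
  have lR : LH eX R := hR.lh hM
  have hpos := hp.ae_pos
  have hG' : ∀ᵐ x : X, x ∈ G → R x / 2 ≤ b x ∧ P x ^ 2 ≤ 2 * ε ^ 2 * b x ^ 2 := by
    filter_upwards [hG, hpos, ce.sq] with x h1 h2 h3 hx
    obtain ⟨k1, k2, -⟩ := h1 hx
    have k3 := ce.b_nn x k1
    have k4 := ce.P_nn x
    have k5 : P x ^ 2 ≤ ε ^ 2 * R x ^ 2 := by rw [← mul_pow]; exact pow_le_pow_left₀ k4 k2 2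
    have k6 : 0 ≤ ε := nonneg_of_mul_nonneg_left (k4.trans k2) h2
    have k7 : ε ^ 2 ≤ 1 / 4 := by nlinarith
    have k8 : P x ^ 2 ≤ R x ^ 2 / 4 := by nlinarith [sq_nonneg (R x)]
    refine ⟨abs_le_of_sq_le_sq' (by nlinarith) k3 |>.2, ?_⟩
    have k9 : R x ^ 2 ≤ 2 * b x ^ 2 := by nlinarith
    nlinarith [sq_nonneg ε]
  have lB : LH eX fun x => max (b x) (1 / 2 * R x) := lb.max (lR.const_mul _)
  have pB : LocPos fun x => max (b x) (1 / 2 * R x) := fun r => by
    obtain ⟨c, hc, h⟩ := hp r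
    exact ⟨c / 2, by positivity, h.mono fun x hx hr =>
      le_trans (by linarith [hx hr]) (le_max_right _ _)⟩
  obtain ⟨η, hηd⟩ : ∃ η : X → ℝ, η = fun x => f x / max (b x) (1 / 2 * R x) := ⟨_, rfl⟩
  have hη : LT eX η := by
    rw [hηd]
    refine ⟨(hf.1.div lB pB).1, ?_⟩
    obtain ⟨r, hr⟩ := hf.2
    exact ⟨r, hr.mono fun x hx h => by simp only [hx h, zero_div]⟩
  have η0 : ∀ᵐ x : X, x ∉ G → η x = 0 := h0.mono fun x hx h => by rw [hηd]; simp [hx h]
  have fe : f =ᵐ[volume] fun x => b x * η x := by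
    filter_upwards [h0, η0, hG', hpos] with x h1 h2 h3 h4
    by_cases hx : x ∈ G
    · have h5 := (h3 hx).1
      have : max (b x) (1 / 2 * R x) = b x := max_eq_left (by linarith)
      have h6 : b x ≠ 0 := by linarith [h4] |> fun (h : 0 < b x) => h.ne'
      simp only [hηd, this]; field_simp
    · rw [h1 hx, h2 hx, mul_zero]
  have d0 : ∀ᵐ x : X, x ∉ G → dot eX η η x = 0 := by
    filter_upwards [η0, ae_all_iff.2 hη.1.1.wd_zero] with x h1 h2 hx
    simp [dot, h2 _ (h1 hx)]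
  obtain ⟨E, hE⟩ : ∃ E, E = ∫ x, b x ^ 2 * dot eX η η x := ⟨_, rfl⟩
  have ib := fi_int_w lb hη
  have iP := fi_int_w lP hη
  have iR := fi_int_w lR hη
  -- (a)
  have a1 := fi_dir_mul lb hη
  rw [← dir_congr fe fe, ← hE] at a1
  have a2 := heq _ (lb.mul_LT (fi_sq_LT hη)).h1
  have a3 : ∫ x, v x * b x * (b x * η x ^ 2) = ∫ x, v x * f x ^ 2 :=
    integral_congr_ae (fe.mono fun x hx => by simp only [hx]; ring)
  have a4 : ip b (fun x => b x * η x ^ 2) = ip f f :=
    integral_congr_ae (fe.mono fun x hx => by simp only [hx]; ring)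
  rw [qf, a3, a4] at a2
  have hEeq : dir eX f f + 2 * (∫ x, v x * f x ^ 2) - 2 * lam * ip f f = E := by linarith
  rw [hEeq]
  -- the weights
  have wP : ∫ x, P x ^ 2 * dot eX η η x ≤ 2 * ε ^ 2 * E := by
    rw [hE, ← integral_const_mul]
    refine integral_mono_ae iP (ib.const_mul _) ?_
    filter_upwards [d0, hG'] with x h1 h2
    by_cases hx : x ∈ G
    · have := mul_le_mul_of_nonneg_right (h2 hx).2 (dot_self_nonneg (b := eX) η x)
      linarith
    · simp [h1 hx]
  have wR : ∫ x, R x ^ 2 * dot eX η η x = (∫ x, P x ^ 2 * dot eX η η x) + E := by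
    rw [hE, ← integral_add iP ib]
    exact integral_congr_ae (ce.sq.mono fun x hx => by simp only [← hx]; ring)
  -- (b)
  have b1 := fi_dir_mul lR hη
  have lφ := lR.mul_LT (fi_sq_LT hη)
  have b2 := hsub _ lφ (hpos.mono fun x hx => by positivity) (by simp)
  have b3 : a0 * ip f f ≤ ∫ x, a x * R x * (R x * η x ^ 2) := by
    rw [ip, ← integral_const_mul]
    refine integral_mono_ae ((hf.h1.1.integrable_mul hf.h1.1).const_mul _)
      (ha.integrable_mul MeasurableSet.univ lR.aesm lR.2 lφ (by simp)) ?_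
    filter_upwards [fe, η0, hG, ce.sq] with x h1 h2 h3 h4
    by_cases hx : x ∈ G
    · have h5 := (h3 hx).2.2
      have h6 : f x * f x ≤ R x ^ 2 * η x ^ 2 := by
        rw [h1]; nlinarith [mul_nonneg (sq_nonneg (P x)) (sq_nonneg (η x))]
      calc a0 * (f x * f x) ≤ a0 * (R x ^ 2 * η x ^ 2) := by gcongr
        _ ≤ a x * (R x ^ 2 * η x ^ 2) := by gcongr
        _ = _ := by ring
    · simp [h1, h2 hx]
  simp only [Pi.zero_apply, zero_mul, integral_zero] at b2
  -- (c), (d)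
  obtain ⟨iY, hY⟩ := fi_current ce hδ hR hp hM hη η0 (by
    filter_upwards [hG, hG'] with x h1 h2 hx using ⟨(h1 hx).1, (h2 hx).1⟩)
  have lRη := lR.mul_LT hη
  have c1 : dir eX f f ≤ dir eX (fun x => R x * η x) (fun x => R x * η x) +
      ∫ x, ∑ i, J P b i x * J P b i x * (η x / R x) ^ 2 := by
    rw [dir_congr fe fe]
    unfold dir
    rw [← integral_add (lRη.h1.integrable_dot lRη.h1) iY]
    refine integral_mono_ae ((lb.mul_LT hη).h1.integrable_dot (lb.mul_LT hη).h1)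
      ((lRη.h1.integrable_dot lRη.h1).add iY) ?_
    filter_upwards [hpos, ce.sq, ae_all_iff.2 (lb.wd_mul hη.1), ae_all_iff.2 (lR.wd_mul hη.1),
      ae_all_iff.2 (ce.grad hR hp)] with x kp ks k1 k2 k3
    simp only [dot, ← Finset.sum_add_distrib]
    refine Finset.sum_le_sum fun i _ => ?_
    rw [k1 i, k2 i, (k3 i).2]
    have h1 : (b x / R x) ^ 2 + (P x / R x) ^ 2 = 1 := by
      field_simp; linarith
    have h2 := fi_alg1 (x := wd (eX i) R x * η x + R x * wd (eX i) η x)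
      (y := J P b i x * (η x / R x)) h1
    have e1 : (b x * wd (eX i) R x - P x * J P b i x / R x) / R x * η x + b x * wd (eX i) η x =
        b x / R x * (wd (eX i) R x * η x + R x * wd (eX i) η x) -
          P x / R x * (J P b i x * (η x / R x)) := by
      field_simp; ring
    rw [e1]
    nlinarith
  nlinarith

end Crest.Agent.R335
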