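/-
R335/FI/Agmon: an Agmon inequality contradicts the lower bound on the slab (helper56)
-/
import Crest.Agent.R335.FI.Core

set_option autoImplicit false
set_option linter.unusedSectionVars false
set_option linter.unusedVariables false
set_option linter.unusedSimpArgs false

noncomputable section

namespace Crest.Agent.R335

open MeasureTheory Set Filter Topology Metric
open scoped ENNReal

theorem fi_sqrt_lip {a b : ℝ} (ha : 0 ≤ a) (hb : 0 ≤ b) :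
    |√(1 + a ^ 2) - √(1 + b ^ 2)| ≤ |a - b| := by
  have h1 : a ≤ √(1 + a ^ 2) := Real.le_sqrt_of_sq_le (by linarith)
  have h2 : b ≤ √(1 + b ^ 2) := Real.le_sqrt_of_sq_le (by linarith)
  have h3 : 0 < √(1 + a ^ 2) := Real.sqrt_pos.2 (by positivity)
  have h4 : 0 < √(1 + b ^ 2) := Real.sqrt_pos.2 (by positivity)
  have h5 := Real.sq_sqrt (show 0 ≤ 1 + a ^ 2 by positivity)
  have h6 := Real.sq_sqrt (show 0 ≤ 1 + b ^ 2 by positivity)
  refine le_of_mul_le_mul_right ?_ (add_pos h3 h4)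
  have e : (√(1 + a ^ 2) - √(1 + b ^ 2)) * (√(1 + a ^ 2) + √(1 + b ^ 2)) = (a - b) * (a + b) := by
    nlinarith
  calc _ = |(√(1 + a ^ 2) - √(1 + b ^ 2)) * (√(1 + a ^ 2) + √(1 + b ^ 2))| := by
        rw [abs_mul, abs_of_pos (add_pos h3 h4)]
    _ = |a - b| * (a + b) := by rw [e, abs_mul, abs_of_nonneg (add_nonneg ha hb)]
    _ ≤ _ := by gcongr

theorem fi_weight {κ T : ℝ} (hκ : 0 ≤ κ) (hT : 0 < T) : ∃ ω : X → ℝ, ContDiff ℝ 1 ω ∧
    (∀ x, ‖fderiv ℝ ω x‖ ≤ κ) ∧ (∀ x, ω x ≤ κ * T) ∧ (∀ x, ω x ≤ κ * (‖x‖ + 1)) ∧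
    ∀ x, κ * T / (T + ‖x‖ + 1) * ‖x‖ ≤ ω x := by
  obtain ⟨s, hs⟩ : ∃ s : X → ℝ, s = fun x => √(1 + ‖x‖ ^ 2) := ⟨_, rfl⟩
  have s1 : ∀ x, ‖x‖ ≤ s x := fun x => by rw [hs]; exact Real.le_sqrt_of_sq_le (by linarith)
  have s2 : ∀ x, s x ≤ ‖x‖ + 1 := fun x => by
    rw [hs]; exact Real.sqrt_le_iff.2 ⟨by positivity, by nlinarith [norm_nonneg x]⟩
  have s0 : ∀ x, 0 ≤ s x := fun x => (norm_nonneg x).trans (s1 x)
  have s3 : ContDiff ℝ 1 s := by
    rw [hs]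
    exact (contDiff_const.add (contDiff_norm_sq ℝ)).sqrt fun x => by positivity
  have s4 : ∀ x y, |s x - s y| ≤ ‖x - y‖ := fun x y => by
    rw [hs]; exact (fi_sqrt_lip (norm_nonneg x) (norm_nonneg y)).trans (abs_norm_sub_norm_le x y)
  have p : ∀ x, 0 < T + s x := fun x => by linarith [s0 x]
  refine ⟨fun x => κ * T * s x / (T + s x),
    (contDiff_const.mul s3).div (contDiff_const.add s3) fun x => (p x).ne', fun x => ?_,
    fun x => ?_, fun x => ?_, fun x => ?_⟩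
  · refine norm_fderiv_le_of_lip' ℝ hκ (Eventually.of_forall fun y => ?_)
    have e : κ * T * s y / (T + s y) - κ * T * s x / (T + s x) =
        κ * (s y - s x) * (T / (T + s y) * (T / (T + s x))) := by
      have := (p x).ne'; have := (p y).ne'
      field_simp; ring
    have h1 : ∀ w, 0 ≤ T / (T + s w) ∧ T / (T + s w) ≤ 1 := fun w =>
      ⟨(div_pos hT (p w)).le, (div_le_one (p w)).2 (by linarith [s0 w])⟩
    rw [Real.norm_eq_abs, e, abs_mul, abs_mul, abs_of_nonneg hκ,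
      abs_of_nonneg (mul_nonneg (h1 y).1 (h1 x).1)]
    calc _ ≤ κ * ‖y - x‖ * 1 := by
          have := s4 y x
          have := mul_le_one₀ (h1 y).2 (h1 x).1 (h1 x).2
          have := mul_nonneg (h1 y).1 (h1 x).1
          gcongr
      _ = _ := mul_one _
  · rw [div_le_iff₀ (p x)]
    have : 0 ≤ κ * T := by positivity
    nlinarith
  · rw [div_le_iff₀ (p x)]
    have h1 : T * s x ≤ (‖x‖ + 1) * (T + s x) := by
      nlinarith [s2 x, s0 x, norm_nonneg x]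
    nlinarith [mul_le_mul_of_nonneg_left h1 hκ]
  · have h1 : κ * T / (T + ‖x‖ + 1) ≤ κ * T / (T + s x) :=
      div_le_div_of_nonneg_left (by positivity) (p x) (by linarith [s2 x])
    calc _ ≤ κ * T / (T + s x) * s x :=
          mul_le_mul h1 (s1 x) (norm_nonneg x) (by have := p x; positivity)
      _ = _ := by ring

theorem fi_box (a N : ℝ) : ∃ S : Set X, MeasurableSet S ∧ volume S = ENNReal.ofReal N ∧
    ∀ x ∈ S, a ≤ ‖x‖ ∧ ‖x‖ ≤ |a| + |N| + 2 ∧ |x 2| ≤ 1 := by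
  refine ⟨WithLp.ofLp ⁻¹' Icc ![a, 0, 0] ![a + N, 1, 1],
    measurableSet_Icc.preimage (PiLp.volume_preserving_ofLp (Fin 3)).measurable, ?_, fun x hx => ?_⟩
  · rw [(PiLp.volume_preserving_ofLp (Fin 3)).measure_preimage measurableSet_Icc.nullMeasurableSet,
      Real.volume_Icc_pi, Fin.prod_univ_three]
    simp
  · have h0 : a ≤ x 0 ∧ x 0 ≤ a + N := ⟨hx.1 0, hx.2 0⟩
    have h1 : 0 ≤ x 1 ∧ x 1 ≤ 1 := ⟨hx.1 1, hx.2 1⟩
    have h2 : 0 ≤ x 2 ∧ x 2 ≤ 1 := ⟨hx.1 2, hx.2 2⟩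
    have h3 : |x 0| ≤ ‖x‖ := by simpa using PiLp.norm_apply_le x 0
    have h4 : |x 0| ≤ |a| + |N| := abs_le.2
      ⟨by linarith [neg_abs_le a, abs_nonneg N], by linarith [le_abs_self a, le_abs_self N]⟩
    refine ⟨h0.1.trans ((le_abs_self _).trans h3), ?_, abs_le.2 ⟨by linarith, h2.2⟩⟩
    rw [EuclideanSpace.norm_eq]
    refine Real.sqrt_le_iff.2 ⟨by positivity, ?_⟩
    rw [Fin.sum_univ_three]
    simp only [Real.norm_eq_abs, sq_abs]
    have h5 : x 0 ^ 2 ≤ (|a| + |N|) ^ 2 := by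
      rw [← sq_abs]; exact pow_le_pow_left₀ (abs_nonneg _) h4 2
    nlinarith [abs_nonneg a, abs_nonneg N]

theorem fi_agmon {P : X → ℝ} (hP : MemLp P 2 volume) {κ0 κ' r1 c : ℝ} (hκ' : 0 < κ')
    (hκ : κ' < κ0) (hc : 0 < c)
    (hA : ∀ ψ : X → ℝ, Tst ψ → (∀ x, ‖x‖ ≤ r1 → ψ x = 0) →
      κ0 ^ 2 * ∫ x, ψ x ^ 2 * P x ^ 2 ≤ ∫ x, ‖fderiv ℝ ψ x‖ ^ 2 * P x ^ 2)
    (hlow : ∀ᵐ x : X, |x 2| ≤ 1 → c * ex κ' x ≤ P x) : False := by
  obtain ⟨κ, k1, k2⟩ := exists_between hκ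
  have k0 : 0 < κ := hκ'.trans k1
  have k3 : 0 < κ0 - κ := sub_pos.2 k2
  obtain ⟨C, hC, hrc⟩ := exists_radial_cutoff
  obtain ⟨r, hr0, hr1⟩ : ∃ r : ℝ, 0 ≤ r ∧ r1 ≤ r := ⟨max r1 0, le_max_right _ _, le_max_left _ _⟩
  obtain ⟨χ0, c1, -, c2, c3, c4, c5, -⟩ := hrc 0 r 1 hr0 one_pos
  simp only [sub_zero, div_one] at c3 c4 c5
  obtain ⟨χ, C', d1, d2, d3, d4⟩ := exists_cutoff (E := X)
  have iP : Integrable fun x => P x ^ 2 := hP.integrable_sq
  obtain ⟨B, hB⟩ : ∃ B, B = 1 + C * Real.exp (κ * (r + 2)) := ⟨_, rfl⟩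
  obtain ⟨N, hN⟩ : ∃ N, N = B ^ 2 * (∫ x, P x ^ 2) / ((κ0 - κ) ^ 2 * c ^ 2) + 1 := ⟨_, rfl⟩
  have nP : 0 ≤ ∫ x, P x ^ 2 := integral_nonneg fun x => sq_nonneg _
  have hN0 : 0 < N := by rw [hN]; positivity
  obtain ⟨S, hS, vS, mS⟩ := fi_box (r + 1) N
  obtain ⟨L, hL⟩ : ∃ L, L = |r + 1| + |N| + 2 := ⟨_, rfl⟩
  have hL0 : 0 < L := by rw [hL]; positivity
  rw [← hL] at mS
  obtain ⟨T, hT⟩ : ∃ T, T = κ' * (L + 1) / (κ - κ') := ⟨_, rfl⟩
  have k4 : 0 < κ - κ' := sub_pos.2 k1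
  have hT0 : 0 < T := by rw [hT]; positivity
  obtain ⟨ω, w1, w2, w3, w4, w5⟩ := fi_weight k0.le hT0
  obtain ⟨n, hn⟩ := exists_nat_ge (max L (Real.exp (κ * T) * C'))
  have hn1 : L ≤ n := (le_max_left _ _).trans hn
  have hn2 : Real.exp (κ * T) * (C' / (n + 1)) ≤ 1 := by
    rw [← mul_div_assoc, div_le_one (by positivity)]
    linarith [le_max_right L (Real.exp (κ * T) * C')]
  have c1' : ContDiff ℝ 1 χ0 := c1.of_le (by norm_num)
  have d1' : ContDiff ℝ 1 (χ n) := (d1 n).1.of_le (by norm_num)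
  obtain ⟨θ, hθ⟩ : ∃ θ : X → ℝ, θ = fun x => χ n x * (1 - χ0 x) := ⟨_, rfl⟩
  have θ1 : ContDiff ℝ 1 θ := by rw [hθ]; exact d1'.mul (contDiff_const.sub c1')
  have θ2 : ∀ x, Real.exp (ω x) * ‖fderiv ℝ θ x‖ ≤ B := fun x => by
    have h1 : HasFDerivAt θ (χ n x • -fderiv ℝ χ0 x + (1 - χ0 x) • fderiv ℝ (χ n) x) x := by
      rw [hθ]
      exact (d1'.differentiable (by norm_num) x).hasFDerivAt.mul
        ((c1'.differentiable (by norm_num) x).hasFDerivAt.const_sub 1)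
    have h2 : ‖fderiv ℝ θ x‖ ≤ ‖fderiv ℝ χ0 x‖ + C' / (n + 1) := by
      rw [h1.fderiv]
      refine (norm_add_le _ _).trans (add_le_add ?_ ?_)
      · rw [norm_smul, norm_neg, Real.norm_eq_abs, abs_of_nonneg (d2 n x).1]
        exact mul_le_of_le_one_left (norm_nonneg _) (d2 n x).2
      · rw [norm_smul, Real.norm_eq_abs, abs_of_nonneg (by linarith [(c2 x).2])]
        exact (mul_le_of_le_one_left (norm_nonneg _) (by linarith [(c2 x).1])).trans (d4 n x)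
    have h3 : Real.exp (ω x) * ‖fderiv ℝ χ0 x‖ ≤ C * Real.exp (κ * (r + 2)) := by
      rcases le_or_gt ‖x‖ (r + 1) with h | h
      · rw [mul_comm]
        refine mul_le_mul (c5 x) (Real.exp_le_exp.2 ((w4 x).trans ?_)) (Real.exp_pos _).le
          (by linarith)
        exact mul_le_mul_of_nonneg_left (by linarith) k0.le
      · have h4 : χ0 =ᶠ[𝓝 x] fun _ => 0 := by
          filter_upwards [(isOpen_lt continuous_const continuous_norm).mem_nhds h] with y hy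
          exact c4 y (le_of_lt hy)
        rw [h4.fderiv_eq, fderiv_fun_const]
        simp only [Pi.zero_apply, norm_zero, mul_zero]
        positivity
    have h5 : Real.exp (ω x) * (C' / (n + 1)) ≤ 1 :=
      le_trans (mul_le_mul_of_nonneg_right (Real.exp_le_exp.2 (w3 x))
        ((norm_nonneg _).trans (d4 n x))) hn2
    calc _ ≤ Real.exp (ω x) * (‖fderiv ℝ χ0 x‖ + C' / (n + 1)) := by gcongr
      _ ≤ _ := by rw [mul_add, hB]; linarith
  obtain ⟨ψ, hψ⟩ : ∃ ψ : X → ℝ, ψ = fun x => θ x * Real.exp (ω x) := ⟨_, rfl⟩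
  have ψ1 : Tst ψ := by
    refine ⟨by rw [hψ]; exact θ1.mul w1.exp, ?_⟩
    rw [hψ, hθ]
    exact ((d1 n).2.mul_right).mul_right
  have ψ2 : ∀ x, ‖fderiv ℝ ψ x‖ ≤ κ * |ψ x| + B := fun x => by
    have h1 : HasFDerivAt ψ (θ x • Real.exp (ω x) • fderiv ℝ ω x +
        Real.exp (ω x) • fderiv ℝ θ x) x := by
      rw [hψ]
      exact (θ1.differentiable (by norm_num) x).hasFDerivAt.mul
        (w1.differentiable (by norm_num) x).hasFDerivAt.exp
    rw [h1.fderiv]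
    refine (norm_add_le _ _).trans (add_le_add ?_ ?_)
    · rw [smul_smul, norm_smul, Real.norm_eq_abs, mul_comm, hψ]
      exact mul_le_mul_of_nonneg_right (w2 x) (abs_nonneg _)
    · rw [norm_smul, Real.norm_eq_abs, abs_of_pos (Real.exp_pos _)]
      exact θ2 x
  have a1 := hA ψ ψ1 fun x hx => by simp only [hψ, hθ, c3 x (hx.trans hr1), sub_self, mul_zero, zero_mul]
  have i1 : Integrable fun x => ψ x ^ 2 * P x ^ 2 := by
    have := wd_int_mul iP.locallyIntegrable (ψ1.cont.pow 2)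
      (by simpa only [sq] using ψ1.2.mul_right (f' := ψ))
    simpa only [mul_comm, Pi.pow_apply] using this
  have a2 : (κ0 - κ) * ∫ x, ‖fderiv ℝ ψ x‖ ^ 2 * P x ^ 2 ≤
      (κ0 - κ) * (κ0 * κ) * (∫ x, ψ x ^ 2 * P x ^ 2) + κ0 * B ^ 2 * ∫ x, P x ^ 2 := by
    rw [← integral_const_mul, ← integral_const_mul, ← integral_const_mul,
      ← integral_add (i1.const_mul _) (iP.const_mul _)]
    refine integral_mono_of_nonneg (Eventually.of_forall fun x => by positivity)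
      ((i1.const_mul _).add (iP.const_mul _)) (Eventually.of_forall fun x => ?_)
    have h1 : ‖fderiv ℝ ψ x‖ ^ 2 ≤ (κ * |ψ x| + B) ^ 2 := pow_le_pow_left₀ (norm_nonneg _) (ψ2 x) 2
    have h2 : (κ0 - κ) * (κ * |ψ x| + B) ^ 2 ≤ (κ0 - κ) * (κ0 * κ) * ψ x ^ 2 + κ0 * B ^ 2 := by
      rw [← sq_abs (ψ x)]
      nlinarith [mul_nonneg k0.le (sq_nonneg ((κ0 - κ) * |ψ x| - B))]
    have h3 := (mul_le_mul_of_nonneg_left h1 k3.le).trans h2
    have h4 := mul_le_mul_of_nonneg_right h3 (sq_nonneg (P x))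
    show _ ≤ _ + _
    linarith
  have a3 : (κ0 - κ) ^ 2 * ∫ x, ψ x ^ 2 * P x ^ 2 ≤ B ^ 2 * ∫ x, P x ^ 2 := by
    refine le_of_mul_le_mul_left ?_ (k0.trans k2)
    nlinarith [mul_le_mul_of_nonneg_left a1 k3.le]
  have a4 : c ^ 2 * N ≤ ∫ x, ψ x ^ 2 * P x ^ 2 := by
    have h1 : ∫ x, S.indicator (fun _ => c ^ 2) x = c ^ 2 * N := by
      rw [integral_indicator_const _ hS, measureReal_def, vS, ENNReal.toReal_ofReal hN0.le,
        smul_eq_mul, mul_comm]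
    rw [← h1]
    refine integral_mono_of_nonneg (Eventually.of_forall fun x => indicator_nonneg
      (fun _ _ => sq_nonneg _) x) i1 ?_
    filter_upwards [hlow] with x hx
    by_cases hxS : x ∈ S
    · obtain ⟨m1, m2, m3⟩ := mS x hxS
      rw [indicator_of_mem hxS, ← mul_pow]
      refine pow_le_pow_left₀ hc.le ?_ 2
      have e1 : ψ x = Real.exp (ω x) := by
        simp only [hψ, hθ, d3 n x (m2.trans hn1), c4 x m1, sub_zero, one_mul]
      have h2 : κ' ≤ κ * T / (T + ‖x‖ + 1) := by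
        rw [le_div_iff₀ (by positivity)]
        have h3 : (κ - κ') * T = κ' * (L + 1) := by rw [hT]; field_simp
        nlinarith [mul_le_mul_of_nonneg_left m2 hκ'.le]
      have h3 : κ' * ‖x‖ ≤ ω x := (mul_le_mul_of_nonneg_right h2 (norm_nonneg x)).trans (w5 x)
      have h4 : 1 ≤ Real.exp (ω x) * ex κ' x := by
        rw [ex, ← Real.exp_add]; exact Real.one_le_exp (by linarith)
      rw [e1]
      calc c ≤ Real.exp (ω x) * (c * ex κ' x) := by nlinarith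
        _ ≤ _ := mul_le_mul_of_nonneg_left (hx m3) (Real.exp_pos _).le
    · rw [indicator_of_notMem hxS]; positivity
  have a5 : (κ0 - κ) ^ 2 * (c ^ 2 * N) = B ^ 2 * (∫ x, P x ^ 2) + (κ0 - κ) ^ 2 * c ^ 2 := by
    rw [hN]; field_simp
  have a6 : 0 < (κ0 - κ) ^ 2 * c ^ 2 := by positivity
  nlinarith [mul_le_mul_of_nonneg_left a4 (sq_nonneg (κ0 - κ))]

end Crest.Agent.R335
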