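/-
R335/FI/Pers: the lower bound of the representing potential at infinity (helper56)
-/
import Crest.Agent.R335.FI.Core

set_option autoImplicit false
set_option linter.unusedSectionVars false
set_option linter.unusedVariables false
set_option linter.unusedSimpArgs false

noncomputable section

namespace Crest.Agent.R335

open MeasureTheory Set Filter Topology Metric
open scoped ENNReal

theorem fi_ip_nonneg (f : X → ℝ) : 0 ≤ ip f f := integral_nonneg fun x => mul_self_nonneg _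

theorem fi_ip_sq (f : X → ℝ) : ip f f = ∫ x, f x ^ 2 := by simp only [ip, sq]

theorem fi_norm_nuc (D : ℝ) : ‖nuc D‖ = |D| := by simp [nuc]

theorem fi_V_ge {D s : ℝ} (hs : 0 < s) {x : X} (hx : |D| + s ≤ ‖x‖) : -(2 / s) ≤ V D x := by
  have h1 : s ≤ tp D x := by
    have := norm_sub_norm_le x (nuc D)
    rw [fi_norm_nuc] at this
    unfold tp; linarith
  have h2 : s ≤ tm D x := by
    have := norm_sub_norm_le x (-nuc D)
    rw [norm_neg, fi_norm_nuc, sub_neg_eq_add] at this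
    unfold tm; linarith
  have h3 := one_div_le_one_div_of_le hs h1
  have h4 := one_div_le_one_div_of_le hs h2
  have e : 2 / s = 1 / s + 1 / s := by ring
  unfold V
  rw [neg_div]
  linarith

theorem fi_up {δ M D m2 lam : ℝ} {P b R : X → ℝ} (ce : Cert δ P b R)
    (hδ : 0 ≤ δ) (hR : H1 eX R) (hp : LocPos R) (hM : ∀ᵐ x : X, |R x| ≤ M)
    (hsub : Sub eX univ R (aa D m2) 0) (hm : |m2 - 1| ≤ 1 / 100) (hth : ThetaDecay P R) {t ε : ℝ}
    (ht : 0 < t) (hε : 0 < ε) : ∃ r1 : ℝ, ∀ v : X → ℝ,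
      (∀ φ, H1 eX φ → qf eX v b φ = lam * ip b φ) → ∀ f, LT eX f →
      (∀ᵐ x : X, (x 2 < t ∨ ‖x‖ < r1) → f x = 0) →
      (2 * lam + m2) * ip f f - ε * (ip f f + dir eX f f) ≤ 2 * ∫ x, v x * f x ^ 2 := by
  obtain ⟨ε', h1, h2, h3⟩ : ∃ ε' : ℝ, 0 < ε' ∧ ε' ≤ ε ∧ ε' ≤ 1 :=
    ⟨min ε 1, lt_min hε one_pos, min_le_left _ _, min_le_right _ _⟩
  obtain ⟨r0, hr0⟩ := hth t (ε' / 20) ht (by positivity)
  have hm' := abs_le.1 hm
  refine ⟨max r0 (|D| + 8 / ε'), fun v heq f hf h0 => ?_⟩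
  have key := fi_core (G := {x : X | t ≤ x 2 ∧ max r0 (|D| + 8 / ε') ≤ ‖x‖}) (ε := ε' / 20)
    (a0 := m2 - ε' / 2) ce hδ hR hp hM hsub (li_aa D m2) (by linarith) (by linarith [hm'.1])
    (by
      filter_upwards [hr0] with x hx hG
      refine ⟨ht.trans_le hG.1, hx hG.1 ((le_max_left _ _).trans hG.2), ?_⟩
      have := fi_V_ge (D := D) (s := 8 / ε') (by positivity) ((le_max_right _ _).trans hG.2)
      have e : 2 / (8 / ε') = ε' / 4 := by field_simp; norm_num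
      unfold aa; linarith)
    heq hf (by
      filter_upwards [h0] with x hx hG
      refine hx ?_
      by_contra hc
      push Not at hc
      exact hG hc)
  have n0 := fi_ip_nonneg f
  have d0 := dir_self_nonneg (b := eX) f
  set n := ip f f
  set d := dir eX f f
  set E := d + 2 * (∫ x, v x * f x ^ 2) - 2 * lam * n with hE
  set θ := 34 * (ε' / 20) ^ 2 with hθ
  have θ0 : 0 ≤ θ := by positivity
  have θ1 : θ ≤ ε' / 10 := by rw [hθ]; nlinarith
  have a0 : 0 ≤ m2 - ε' / 2 := by linarith [hm'.1]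
  have s0 : 0 ≤ d + (m2 - ε' / 2) * n := by positivity
  have E0 : 0 ≤ E := nonneg_of_mul_nonneg_right (s0.trans key) (by positivity)
  have k1 : (1 - θ) * (d + (m2 - ε' / 2) * n) ≤ E := by
    calc _ ≤ (1 - θ) * ((1 + θ) * E) := mul_le_mul_of_nonneg_left key (by linarith)
      _ ≤ E := by nlinarith [mul_nonneg (sq_nonneg θ) E0]
  have k2 : θ * d ≤ ε * d := mul_le_mul_of_nonneg_right (by linarith) d0
  have k3 : θ * ((m2 - ε' / 2) * n) ≤ ε' / 10 * (2 * n) := by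
    have : (m2 - ε' / 2) * n ≤ 2 * n := mul_le_mul_of_nonneg_right (by linarith [hm'.2]) n0
    gcongr
  have k4 : ε' * n ≤ ε * n := mul_le_mul_of_nonneg_right h2 n0
  have k5 : 0 ≤ ε' * n := by positivity
  nlinarith

theorem fi_dir_le {f χ : X → ℝ} {L : ℝ} (hf : H1 eX f) (hχ : ContDiff ℝ 1 χ) (h1 : ∀ x, |χ x| ≤ 1)
    (h2 : ∀ x, ‖fderiv ℝ χ x‖ ≤ L) :
    dir eX (fun x => χ x * f x) (fun x => χ x * f x) ≤ 2 * dir eX f f + 2 * L ^ 2 * ip f f := by
  have hg : H1 eX fun x => χ x * f x := hf.mul_contDiff hχ (M := max 1 L)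
    (fun x => (h1 x).trans (le_max_left _ _)) fun x => (h2 x).trans (le_max_right _ _)
  have i1 := hf.integrable_dot hf
  have i2 : Integrable fun x => f x * f x := hf.1.integrable_mul hf.1
  unfold dir ip
  rw [← integral_const_mul, ← integral_const_mul, ← integral_add (i1.const_mul _) (i2.const_mul _)]
  refine integral_mono_ae (hg.integrable_dot hg) ((i1.const_mul _).add (i2.const_mul _)) ?_
  filter_upwards [ae_all_iff.2 (hf.hl.mul_contDiff hχ).2] with x hx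
  have e := sum_fderiv_sq χ x
  have h3 : ‖fderiv ℝ χ x‖ ^ 2 ≤ L ^ 2 := pow_le_pow_left₀ (norm_nonneg _) (h2 x) 2
  have h4 : χ x ^ 2 ≤ 1 := by rw [← sq_abs]; nlinarith [h1 x, abs_nonneg (χ x)]
  have h5 : ∀ i, wd (eX i) (fun x => χ x * f x) x * wd (eX i) (fun x => χ x * f x) x ≤
      2 * (wd (eX i) f x * wd (eX i) f x) + 2 * fderiv ℝ χ x (eX i) ^ 2 * (f x * f x) := fun i => by
    rw [hx i]
    nlinarith [sq_nonneg (χ x * wd (eX i) f x - fderiv ℝ χ x (eX i) * f x),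
      mul_le_mul_of_nonneg_right h4 (sq_nonneg (wd (eX i) f x))]
  have h6 := Finset.sum_le_sum fun i (_ : i ∈ Finset.univ) => h5 i
  rw [Finset.sum_add_distrib, ← Finset.mul_sum, ← Finset.sum_mul, ← Finset.mul_sum, e] at h6
  have h7 : 2 * ‖fderiv ℝ χ x‖ ^ 2 * (f x * f x) ≤ 2 * L ^ 2 * (f x * f x) := by
    have := mul_self_nonneg (f x)
    gcongr
  simp only [dot]
  linarith

/-- A cut-off in `z`. -/
theorem fi_cut {t : ℝ} (ht : 0 < t) : ∃ (k : X → ℝ) (L : ℝ), ContDiff ℝ 1 k ∧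
    (∀ x, 0 ≤ k x ∧ k x ≤ 1) ∧ (∀ x : X, x 2 ≤ t → k x = 0) ∧ (∀ x : X, 2 * t ≤ x 2 → k x = 1) ∧
    ∀ x, ‖fderiv ℝ k x‖ ≤ L := by
  obtain ⟨κ, C, hC, hκ, h01, h0, h1, hd, -⟩ := exists_step
  let ℓ : X →L[ℝ] ℝ := t⁻¹ • EuclideanSpace.proj (2 : Fin 3)
  have hℓ : ∀ x : X, ℓ x = t⁻¹ * x 2 := fun x => rfl
  have hκ1 : ContDiff ℝ 1 κ := hκ.of_le (by norm_num)
  refine ⟨fun x => κ (ℓ x - 1), C * ‖ℓ‖, hκ1.comp (ℓ.contDiff.sub contDiff_const),
    fun x => h01 _, fun x hx => h0 _ ?_, fun x hx => h1 _ ?_, fun x => ?_⟩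
  · rw [hℓ, sub_nonpos, inv_mul_le_iff₀ ht]; linarith
  · rw [hℓ, le_sub_iff_add_le, le_inv_mul_iff₀ ht]; linarith
  · have h2 : HasFDerivAt (fun x => κ (ℓ x - 1)) (deriv κ (ℓ x - 1) • ℓ) x :=
      ((hκ1.differentiable (by norm_num)) _).hasDerivAt.comp_hasFDerivAt x
        (ℓ.hasFDerivAt.sub_const 1)
    rw [h2.fderiv, norm_smul, Real.norm_eq_abs, abs_of_nonneg (hd _).1]
    exact mul_le_mul_of_nonneg_right (hd _).2 (norm_nonneg _)

theorem fi_half {δ M D m2 lam : ℝ} {P b R : X → ℝ} (ce : Cert δ P b R)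
    (hδ : 0 ≤ δ) (hR : H1 eX R) (hp : LocPos R) (hM : ∀ᵐ x : X, |R x| ≤ M)
    (hsub : Sub eX univ R (aa D m2) 0) (hm : |m2 - 1| ≤ 1 / 100) (hth : ThetaDecay P R) {t ε : ℝ}
    (ht : 0 < t) (hε : 0 < ε) : ∃ (k : X → ℝ) (r1 : ℝ), Continuous k ∧
      (∀ x, 0 ≤ k x ∧ k x ≤ 1) ∧ (∀ x : X, x 2 ≤ t → k x = 0) ∧ (∀ x : X, 2 * t ≤ x 2 → k x = 1) ∧
      ∀ v : X → ℝ, (∀ φ, H1 eX φ → qf eX v b φ = lam * ip b φ) → ∀ f, LT eX f →
      (∀ᵐ x : X, ‖x‖ < r1 → f x = 0) →
      (2 * lam + m2) * (∫ x, k x ^ 2 * f x ^ 2) - ε * (ip f f + dir eX f f) ≤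
        2 * ∫ x, k x ^ 2 * (v x * f x ^ 2) := by
  obtain ⟨k, L, hk, h01, h0, h1, hL⟩ := fi_cut ht
  obtain ⟨r1, hr1⟩ := fi_up (lam := lam) ce hδ hR hp hM hsub hm hth ht
    (ε := ε / (2 + 2 * L ^ 2)) (by positivity)
  refine ⟨k, r1, hk.continuous, h01, h0, h1, fun v heq f hf hf0 => ?_⟩
  have hg : LT eX fun x => k x * f x := (LH.of_contDiff hk).mul_LT hf
  have key := hr1 v heq _ hg (by
    filter_upwards [hf0] with x hx h
    rcases h with h | h
    · rw [h0 x h.le, zero_mul]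
    · rw [hx h, mul_zero])
  have e1 : ip (fun x => k x * f x) (fun x => k x * f x) = ∫ x, k x ^ 2 * f x ^ 2 :=
    integral_congr_ae (Eventually.of_forall fun x => by ring)
  have e2 : ∫ x, v x * (k x * f x) ^ 2 = ∫ x, k x ^ 2 * (v x * f x ^ 2) :=
    integral_congr_ae (Eventually.of_forall fun x => by ring)
  have h2 := fi_dir_le hf.h1 hk (fun x => abs_le.2 ⟨by linarith [(h01 x).1], (h01 x).2⟩) hL
  have h3 : ip (fun x => k x * f x) (fun x => k x * f x) ≤ ip f f := by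
    refine integral_mono (hg.h1.1.integrable_mul hg.h1.1) (hf.h1.1.integrable_mul hf.h1.1)
      fun x => ?_
    have : k x ^ 2 ≤ 1 := by nlinarith [h01 x]
    nlinarith [mul_le_mul_of_nonneg_right this (mul_self_nonneg (f x))]
  have n0 := fi_ip_nonneg f
  have d0 := dir_self_nonneg (b := eX) f
  have h4 : ε / (2 + 2 * L ^ 2) * (ip (fun x => k x * f x) (fun x => k x * f x) +
      dir eX (fun x => k x * f x) fun x => k x * f x) ≤ ε * (ip f f + dir eX f f) := by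
    calc _ ≤ ε / (2 + 2 * L ^ 2) * ((2 + 2 * L ^ 2) * (ip f f + dir eX f f)) := by
          refine mul_le_mul_of_nonneg_left ?_ (by positivity)
          nlinarith [mul_nonneg (sq_nonneg L) d0]
      _ = _ := by field_simp
  rw [← e1, ← e2]
  linarith

theorem fi_eq_rf {lam : ℝ} {b v : X → ℝ} (hb : H1 eX b) (ho : ∀ x, b (rf x) = -b x)
    (heq : ∀ φ, H1 eX φ → qf eX v b φ = lam * ip b φ) (φ : X → ℝ) (hφ : H1 eX φ) :
    qf eX (fun x => v (rf x)) b φ = lam * ip b φ := by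
  have h1 := sym_rf.qf v (sym_rf.h1 hb).hl (sym_rf.h1 hφ).hl
  simp only [rf_rf] at h1
  have e : (fun x => b (rf x)) = fun x => -1 * b x := funext fun x => by rw [ho]; ring
  have h2 := sym_rf.ip b fun x => φ (rf x)
  simp only [rf_rf] at h2
  rw [e] at h1 h2
  rw [qf_const_mul_left hb, heq _ (sym_rf.h1 hφ), ← h2] at h1
  have h3 : ip (fun x => -1 * b x) φ = -1 * ip b φ := by
    unfold ip
    rw [← integral_const_mul]
    exact integral_congr_ae (Eventually.of_forall fun x => by ring)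
  have h4 : qf eX (fun x => v (rf x)) b φ = -1 * (lam * ip (fun x => -1 * b x) φ) := h1
  rw [h4, h3]; ring

open Crest.MathPhysics.ThreeBody in
theorem fi_pers {δ M D m2 lam : ℝ} {P b R v : X → ℝ} (ce : Cert δ P b R)
    (hδ : 0 ≤ δ) (hR : H1 eX R) (hp : LocPos R) (hM : ∀ᵐ x : X, |R x| ≤ M)
    (hsub : Sub eX univ R (aa D m2) 0) (hm : |m2 - 1| ≤ 1 / 100) (hth : ThetaDecay P R)
    (hv : IsSumClassPotential v) (heq : ∀ φ, H1 eX φ → qf eX v b φ = lam * ip b φ) {ε : ℝ}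
    (hε : 0 < ε) : ∃ r1 : ℝ, ∀ f, LT eX f → (∀ᵐ x : X, ‖x‖ < r1 → f x = 0) →
      (2 * lam + m2) * ip f f - ε * (ip f f + dir eX f f) ≤ 2 * ∫ x, v x * f x ^ 2 := by
  obtain ⟨v1, v2, hv12, hv1, hv2⟩ := id hv
  obtain ⟨B, hB0, hB⟩ : ∃ B : ℝ, 0 < B ∧ ∀ᵐ x : X, |2 * v2 x - (2 * lam + m2)| ≤ B := by
    refine ⟨2 * (eLpNormEssSup v2 volume).toReal + |2 * lam + m2| + 1, by positivity, ?_⟩
    filter_upwards [ae_le_eLpNormEssSup (f := v2) (μ := volume)] with x hx
    have h1 : eLpNormEssSup v2 volume ≠ ⊤ := by simpa using hv2.2.ne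
    have h2 := ENNReal.toReal_mono h1 hx
    rw [toReal_enorm, Real.norm_eq_abs] at h2
    have h3 := abs_sub (2 * v2 x) (2 * lam + m2)
    rw [abs_mul, abs_two] at h3
    linarith
  obtain ⟨C, hC, hsl⟩ := slab_small
  obtain ⟨t, ht, ht1, ht2⟩ : ∃ t : ℝ, 0 < t ∧ 2 * t ≤ 1 ∧ B * (C * (2 * t)) ≤ ε / 4 := by
    refine ⟨min (1 / 2) (ε / (8 * B * C)), lt_min (by norm_num) (by positivity),
      by linarith [min_le_left (1 / 2 : ℝ) (ε / (8 * B * C))], ?_⟩
    calc _ ≤ B * (C * (2 * (ε / (8 * B * C)))) := by gcongr; exact min_le_right _ _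
      _ = _ := by field_simp; norm_num
  obtain ⟨k, r1, hk, h01, h0, h1, hh⟩ := fi_half (lam := lam) ce hδ hR hp hM hsub hm hth ht
    (ε := ε / 4) (by positivity)
  obtain ⟨r2, hr2, -⟩ := tail_small hv1 (ε := ε / 8) (by positivity)
  refine ⟨max r1 r2, fun f hf hf0 => ?_⟩
  have hf1 : ∀ᵐ x : X, ‖x‖ < r1 → f x = 0 := hf0.mono fun x hx h => hx (h.trans_le (le_max_left _ _))
  have u1 := hh v heq f hf hf1
  have u2 := hh _ (fi_eq_rf ce.hb ce.b_odd heq) _ (sym_rf.lt hf) (by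
    filter_upwards [sym_rf.ae hf1] with x hx h
    exact hx (by rwa [norm_rf]))
  rw [sym_rf.ip, sym_rf.dir hf.1.1 hf.1.1] at u2
  have e1 := sym_rf.integral fun x => k (rf x) ^ 2 * f x ^ 2
  have e2 := sym_rf.integral fun x => k (rf x) ^ 2 * (v x * f x ^ 2)
  simp only [rf_rf] at e1 e2
  rw [e1, e2] at u2
  have u3 := hr2 f hf.h1 (hf0.mono fun x hx h => hx (h.trans_le (le_max_right _ _)))
  have u4 := hsl f hf.h1 (2 * t) (by linarith) ht1
  have hS : MeasurableSet {x : X | |x 2| < 2 * t} :=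
    (isOpen_lt (by fun_prop) continuous_const).measurableSet
  rw [← integral_indicator hS] at u4
  have hk' : Continuous fun x => k (rf x) := by
    obtain ⟨L, -, -, hL, -⟩ := sym_rf.ex
    have : rf = L := funext fun x => (hL x).symm
    rw [this]; exact hk.comp L.continuous
  have iv : Integrable fun x => v x * f x ^ 2 := by
    simpa only [mul_assoc, ← sq] using sumClass_integrable hv hf.h1 hf.h1
  have iv1 : Integrable fun x => |v1 x| * f x ^ 2 := by
    have := (sumClass_integrable ⟨v1, 0, (add_zero _).symm, hv1, MemLp.zero⟩ hf.h1 hf.h1).abs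
    simpa only [mul_assoc, ← sq, abs_mul, abs_pow, sq_abs] using this
  have if2 : Integrable fun x => f x ^ 2 := hf.h1.1.integrable_sq
  have bm : ∀ {w g : X → ℝ}, Continuous w → (∀ x, 0 ≤ w x ∧ w x ≤ 1) → Integrable g →
      Integrable fun x => w x ^ 2 * g x := fun {w g} hw hw' hg =>
    hg.bdd_mul (c := 1) (hw.pow 2).aestronglyMeasurable (Eventually.of_forall fun x => by
      rw [Real.norm_eq_abs, abs_of_nonneg (sq_nonneg _)]; nlinarith [hw' x])
  have j1 := bm hk h01 iv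
  have j2 := bm hk' (fun x => h01 _) iv
  have j3 := bm hk h01 if2
  have j4 := bm hk' (fun x => h01 _) if2
  have jS := if2.indicator hS
  have main : ∫ x, ((2 * lam + m2) * (f x ^ 2 - k x ^ 2 * f x ^ 2 - k (rf x) ^ 2 * f x ^ 2) -
      2 * (|v1 x| * f x ^ 2) - B * {x : X | |x 2| < 2 * t}.indicator (fun x => f x ^ 2) x) ≤
      ∫ x, 2 * (v x * f x ^ 2 - k x ^ 2 * (v x * f x ^ 2) - k (rf x) ^ 2 * (v x * f x ^ 2)) := by
    refine integral_mono_ae
      (((((if2.sub j3).sub j4).const_mul _).sub (iv1.const_mul _)).sub (jS.const_mul _))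
      (((iv.sub j1).sub j2).const_mul _) ?_
    filter_upwards [hB] with x hx
    have hvx : v x = v1 x + v2 x := by rw [hv12]; rfl
    obtain ⟨w, hw⟩ : ∃ w, w = 1 - k x ^ 2 - k (rf x) ^ 2 := ⟨_, rfl⟩
    have hw01 : 0 ≤ w ∧ w ≤ 1 := by
      have a1 := h01 x
      have a2 := h01 (rf x)
      rcases le_total (x 2) 0 with h | h
      · rw [hw, h0 x (by linarith)]; constructor <;> nlinarith
      · rw [hw, h0 (rf x) (by rw [rf_two]; linarith)]; constructor <;> nlinarith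
    have hf2 := sq_nonneg (f x)
    have b1 : -(|v1 x| * f x ^ 2) ≤ v1 x * (w * f x ^ 2) := by
      have a1 : |v1 x * (w * f x ^ 2)| ≤ |v1 x| * f x ^ 2 := by
        rw [abs_mul, abs_of_nonneg (mul_nonneg hw01.1 hf2)]
        exact mul_le_mul_of_nonneg_left (mul_le_of_le_one_left hf2 hw01.2) (abs_nonneg _)
      exact (abs_le.1 a1).1
    have b2 : -(B * {x : X | |x 2| < 2 * t}.indicator (fun x => f x ^ 2) x) ≤
        (2 * v2 x - (2 * lam + m2)) * (w * f x ^ 2) := by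
      by_cases hxs : x ∈ {x : X | |x 2| < 2 * t}
      · rw [indicator_of_mem hxs]
        have a1 : |(2 * v2 x - (2 * lam + m2)) * (w * f x ^ 2)| ≤ B * f x ^ 2 := by
          rw [abs_mul, abs_of_nonneg (mul_nonneg hw01.1 hf2)]
          exact mul_le_mul hx (mul_le_of_le_one_left hf2 hw01.2) (mul_nonneg hw01.1 hf2) hB0.le
        exact (abs_le.1 a1).1
      · rw [indicator_of_notMem hxs]
        have a1 : w = 0 := by
          have a2 : 2 * t ≤ |x 2| := not_lt.1 hxs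
          rcases le_abs.1 a2 with h | h
          · rw [hw, h1 x h, h0 (rf x) (by rw [rf_two]; linarith)]; ring
          · rw [hw, h0 x (by linarith), h1 (rf x) (by rw [rf_two]; linarith)]; ring
        simp [a1]
    simp only [hvx]
    rw [hw] at b1 b2
    nlinarith
  have q1 : Integrable fun x => f x ^ 2 - k x ^ 2 * f x ^ 2 := if2.sub j3
  have q2 : Integrable fun x => (2 * lam + m2) *
      (f x ^ 2 - k x ^ 2 * f x ^ 2 - k (rf x) ^ 2 * f x ^ 2) := (q1.sub j4).const_mul _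
  have q3 : Integrable fun x => (2 * lam + m2) *
      (f x ^ 2 - k x ^ 2 * f x ^ 2 - k (rf x) ^ 2 * f x ^ 2) - 2 * (|v1 x| * f x ^ 2) :=
    q2.sub (iv1.const_mul _)
  have q4 : Integrable fun x => v x * f x ^ 2 - k x ^ 2 * (v x * f x ^ 2) := iv.sub j1
  rw [integral_sub q3 (jS.const_mul _), integral_sub q2 (iv1.const_mul _), integral_const_mul,
    integral_const_mul, integral_const_mul, integral_const_mul, integral_sub q1 j4,
    integral_sub if2 j3, integral_sub q4 j2, integral_sub iv j1, ← fi_ip_sq] at main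
  have n0 := fi_ip_nonneg f
  have d0 := dir_self_nonneg (b := eX) f
  have u5 : B * ∫ x, {x : X | |x 2| < 2 * t}.indicator (fun x => f x ^ 2) x ≤
      ε / 4 * (ip f f + dir eX f f) := by
    calc _ ≤ B * (C * (2 * t) * (ip f f + dir eX f f)) := mul_le_mul_of_nonneg_left u4 hB0.le
      _ = B * (C * (2 * t)) * (ip f f + dir eX f f) := by ring
      _ ≤ _ := mul_le_mul_of_nonneg_right ht2 (by linarith)
  nlinarith [mul_nonneg hε.le n0]

end Crest.Agent.R335
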