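/-
R335/FI/Main: block FI (see R335/Notes)
Skeleton by helper48 (row 335); keep the statements unchanged, add any helper lemmas you like.
-/
import Crest.Agent.R335.RT.Main
import Crest.Agent.R335.Assemble
import Crest.Agent.R335.FI.Pers
import Crest.Agent.R335.FI.Agmon

set_option autoImplicit false
set_option linter.unusedSectionVars false
set_option linter.unusedVariables false
set_option linter.unusedSimpArgs false

noncomputable section

namespace Crest.Agent.R335

open MeasureTheory Set Filter Topology Metric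
open scoped ENNReal


theorem stFinal : StFinal := by
  intro c C D g u eg eu Λ Λ' C1 C2 K R0 ϱ l M η m2 de f δ P b v e1 ob ch pr ce hδ hth hlo hv hP hb
  have hm := abs_le.1 pr.m2_near
  obtain ⟨ε, hε, hε1, hε2⟩ : ∃ ε : ℝ, 0 < ε ∧ ε ≤ δ ∧ ε ≤ 1 :=
    ⟨min δ 1, lt_min hδ one_pos, min_le_left _ _, min_le_right _ _⟩
  obtain ⟨r1, hr1⟩ := fi_pers ce hδ.le ch.hR (locPos_R ch pr.pos) ch.R_bdd ch.subR pr.m2_near hth
    hv hb hε
  obtain ⟨lP, -, -, -⟩ := ce.lh ch.R_bdd
  have hκ' : 0 < √(m2 + δ / 2) := Real.sqrt_pos.2 (by linarith [hm.1])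
  obtain ⟨c', hc', hlow⟩ := pr.low _ hκ' (by rw [Real.sq_sqrt (by linarith [hm.1])]; linarith)
  refine fi_agmon ce.hP.1 (κ0 := √(m2 + δ)) (r1 := r1) (c := c' / (|Λ'| + 1)) hκ'
    (Real.sqrt_lt_sqrt (by linarith [hm.1]) (by linarith)) (by positivity) (fun ψ hψ h0 => ?_) ?_
  · have lf : LT eX fun x => ψ x * P x := by
      simpa only [mul_comm] using lP.mul_LT (LT.of_tst hψ)
    have h1 := hr1 _ lf (Eventually.of_forall fun x hx => by rw [h0 x hx.le, zero_mul])
    obtain ⟨M1, hM1⟩ := hψ.cont.bounded_above_of_compact_support hψ.2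
    obtain ⟨M2, hM2⟩ := (hψ.1.continuous_fderiv (by norm_num)).bounded_above_of_compact_support
      (hψ.2.fderiv ℝ)
    have h2 := ce.hP.dir_mul hψ.1 (M := max M1 M2) (fun x => (hM1 x).trans (le_max_left _ _))
      fun x => (hM2 x).trans (le_max_right _ _)
    simp only [sum_fderiv_sq] at h2
    have h3 := hP (fun x => ψ x ^ 2 * P x) (by
      simpa only [mul_comm] using (lP.mul_LT (fi_sq_LT (LT.of_tst hψ))).h1)
    have e1 : ∫ x, v x * P x * (ψ x ^ 2 * P x) = ∫ x, v x * (ψ x * P x) ^ 2 :=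
      integral_congr_ae (Eventually.of_forall fun x => by ring)
    have e2 : ip P (fun x => ψ x ^ 2 * P x) = ∫ x, ψ x ^ 2 * P x ^ 2 :=
      integral_congr_ae (Eventually.of_forall fun x => by ring)
    have e3 : ip (fun x => ψ x * P x) (fun x => ψ x * P x) = ∫ x, ψ x ^ 2 * P x ^ 2 :=
      integral_congr_ae (Eventually.of_forall fun x => by ring)
    have n0 := fi_ip_nonneg fun x => ψ x * P x
    have d0 := dir_self_nonneg (b := eX) fun x => ψ x * P x
    rw [qf, e1, e2] at h3
    rw [e3] at h1 n0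
    rw [Real.sq_sqrt (by linarith [hm.1])]
    nlinarith [mul_le_mul_of_nonneg_right hε1 n0, mul_le_mul_of_nonneg_right hε2 d0]
  · filter_upwards [hlow, hlo] with x h1 h2 hx
    have h3 := (h1 hx).trans (h2 (Or.inr (by linarith)))
    have h4 : Λ' * P x ≤ (|Λ'| + 1) * P x :=
      mul_le_mul_of_nonneg_right (by linarith [le_abs_self Λ']) (ce.P_nn x)
    rw [div_mul_eq_mul_div, div_le_iff₀ (by positivity)]
    linarith

end Crest.Agent.R335
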